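import Vale.Agent.P361.Defs
import Vale.Agent.P361.Checks

/-!
Heisenberg ferromagnet in three dimensions: lower bound on `S - m_S(β)` with the Bloch coefficient.
-/

namespace Vale.Agent.Results.P361.BlochLower

open Vale.Agent.P361 Filter Topology

/-- For every spin `S = n / 2`, `n ≥ 1`:
1. the spin matrices satisfy the spin commutation relations and the Casimir relation;
2. for every `β > 0` the pressure is the limit of the finite-volume pressures, it is convex in `h`,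
   and `spontMag n β` is its right derivative at `h = 0`;
3. at every `β > 0` the spontaneous magnetization `m` satisfies
   `m ∑_{1 ≤ ν ≤ K} (π⁻¹ ∫_0^π exp (-ν β S² θ² / m) dθ)³ ≤ S (S - m)` for every `K`;
4. `liminf_{β → ∞} β^{3/2} (S - m_S(β)) ≥ ζ(3/2) / (8 π^{3/2} S^{3/2})`. -/
theorem result (n : ℕ) (hn : 1 ≤ n) :
    (spin1 n * spin2 n - spin2 n * spin1 n = Complex.I • spin3 n ∧
      spin2 n * spin3 n - spin3 n * spin2 n = Complex.I • spin1 n ∧
      spin3 n * spin1 n - spin1 n * spin3 n = Complex.I • spin2 n ∧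
      spin1 n * spin1 n + spin2 n * spin2 n + spin3 n * spin3 n =
        ((n : ℂ) / 2 * ((n : ℂ) / 2 + 1)) • (1 : Matrix (Fin (n + 1)) (Fin (n + 1)) ℂ)) ∧
    (∀ β : ℝ, 0 < β →
      (∀ h : ℝ, Tendsto (fun N : ℕ => finPressure n N β h) atTop (𝓝 (pressure n β h))) ∧
      ConvexOn ℝ Set.univ (pressure n β) ∧
      HasDerivWithinAt (pressure n β) (spontMag n β) (Set.Ioi 0) 0) ∧
    (∀ β : ℝ, 0 < β → ∀ K : ℕ,
      spontMag n β * ∑ ν ∈ Finset.range K, ((1 / Real.pi) * ∫ θ in (0 : ℝ)..Real.pi,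
        Real.exp (-(((ν : ℝ) + 1) * β * ((n : ℝ) / 2) ^ 2 * θ ^ 2 / spontMag n β))) ^ 3 ≤
        (n : ℝ) / 2 * ((n : ℝ) / 2 - spontMag n β)) ∧
    (∀ c : ℝ, c < (riemannZeta (3 / 2)).re /
        (8 * Real.pi ^ (3 / 2 : ℝ) * ((n : ℝ) / 2) ^ (3 / 2 : ℝ)) →
      ∀ᶠ β : ℝ in atTop, c < β ^ (3 / 2 : ℝ) * ((n : ℝ) / 2 - spontMag n β)) :=
  ⟨⟨spin_comm12 n, spin_comm23 n, spin_comm31 n, spin_casimir n⟩,
    fun β hβ => ⟨fun h => pressure_tendsto n β h hβ, pressure_convex n β hβ,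
      spontMag_hasDeriv n β hβ⟩,
    fun β hβ K => all_temp n β hβ K,
    fun c hc => bloch_lower n hn c hc⟩

end Vale.Agent.Results.P361.BlochLower
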